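import Vale.Agent.P273.H95.Wall

/-!
The gaps of a region as functions of their number, products of consecutive gaps, and the choice of
the base near a point where exactly the gaps in `B` vanish: on this base a product of consecutive
gaps is small if it contains a gap of `B`, and not small otherwise.
-/

noncomputable section

namespace Vale.Agent.P273.H67

open Set Filter Topology H95

/-! ### Any finite family of functions -/

/-- Near `c` the functions of a finite family that vanish at `c` are less than `ε`, and the other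
ones are greater than `ε`. -/
theorem exists_eps {X ι : Type*} [TopologicalSpace X] [Finite ι] {f : ι → X → ℂ} {c : X}
    (hf : ∀ i, ContinuousAt (f i) c) {ε₀ : ℝ} (h0 : 0 < ε₀) :
    ∃ ε, 0 < ε ∧ ε < ε₀ ∧ ∀ᶠ p in 𝓝 c, ∀ i,
      (f i c ≠ 0 → ε < ‖f i p‖) ∧ (f i c = 0 → ‖f i p‖ < ε) := by
  classical
  have hε : ∃ ε, 0 < ε ∧ ε < ε₀ ∧ ∀ i, f i c ≠ 0 → ε < ‖f i c‖ := by
    have h1 : ∀ i, ∃ δ > 0, f i c ≠ 0 → δ < ‖f i c‖ := by
      intro i
      by_cases h : f i c = 0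
      · exact ⟨1, one_pos, fun h' => absurd h h'⟩
      · exact ⟨‖f i c‖ / 2, half_pos (norm_pos_iff.2 h), fun _ => half_lt_self (norm_pos_iff.2 h)⟩
    choose δ hδ hδ' using h1
    have : ∀ᶠ ε in 𝓝[>] (0 : ℝ), ε < ε₀ ∧ ∀ i, ε < δ i := by
      refine Filter.Eventually.and ?_ (Filter.eventually_all.2 fun i => ?_)
      · filter_upwards [Ioo_mem_nhdsGT h0] with ε hε using hε.2
      · filter_upwards [Ioo_mem_nhdsGT (hδ i)] with ε hε using hε.2
    obtain ⟨ε, h2, h3⟩ := (this.and self_mem_nhdsWithin).exists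
    exact ⟨ε, h3, h2.1, fun i hi => (h2.2 i).trans (hδ' i hi)⟩
  obtain ⟨ε, h1, h2, h3⟩ := hε
  refine ⟨ε, h1, h2, Filter.eventually_all.2 fun i => ?_⟩
  by_cases h : f i c = 0
  · have : ∀ᶠ p in 𝓝 c, ‖f i p‖ < ε := by
      refine (hf i).norm.eventually (gt_mem_nhds ?_)
      change ‖f i c‖ < ε
      rw [h, norm_zero]; exact h1
    filter_upwards [this] with p hp
    exact ⟨fun h' => absurd h h', fun _ => hp⟩
  · have : ∀ᶠ p in 𝓝 c, ε < ‖f i p‖ := (hf i).norm.eventually (lt_mem_nhds (h3 i h))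
    filter_upwards [this] with p hp
    exact ⟨fun _ => hp, fun h' => absurd h' h⟩

/-! ### The gaps -/

variable {R : Region}

/-- The gap number `g` of the neck `k` (`1` if there is no such gap). -/
def tau (p : R.Sp) (k : Fin 3) (g : ℕ) : ℂ :=
  if h : g < R.n k + 1 then p.1 ⟨k, ⟨g, h⟩⟩ else 1

theorem tau_fin (p : R.Sp) (k : Fin 3) (g : Fin (R.n k + 1)) : tau p k g = p.1 ⟨k, g⟩ :=
  dif_pos g.2

theorem tau_out (p : R.Sp) (k : Fin 3) {g : ℕ} (h : R.n k < g) : tau p k g = 1 :=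
  dif_neg (by omega)

/-- Products over the gaps with a property. -/
theorem prod_tau (p : R.Sp) (k : Fin 3) (P : ℕ → Prop) [DecidablePred P] {s : Finset ℕ}
    (h : ∀ g, g ≤ R.n k → (P g ↔ g ∈ s)) :
    ∏ g : Fin (R.n k + 1), (if P g then p.1 ⟨k, g⟩ else 1) = ∏ g ∈ s, tau p k g := by
  have h1 : ∏ g : Fin (R.n k + 1), (if P g then p.1 ⟨k, g⟩ else 1) =
      ∏ g ∈ Finset.range (R.n k + 1), if P g then tau p k g else 1 := by
    rw [← Fin.prod_univ_eq_prod_range fun g => if P g then tau p k g else 1]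
    exact Finset.prod_congr rfl fun g _ => by rw [tau_fin]
  rw [h1, ← Finset.prod_filter]
  refine Finset.prod_subset_one_on_sdiff (fun g hg => ?_) (fun g hg => ?_) fun g _ => rfl
  · rw [Finset.mem_filter, Finset.mem_range] at hg
    exact (h g (by omega)).1 hg.2
  · rw [Finset.mem_sdiff, Finset.mem_filter, Finset.mem_range] at hg
    refine tau_out p k ?_
    by_contra h2
    exact hg.2 ⟨by omega, (h g (by omega)).2 hg.1⟩

theorem XX_eq (p : R.Sp) (k : Fin 3) (i : ℕ) :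
    R.XX p k i = ∏ g ∈ Finset.range (i + 1), tau p k g :=
  prod_tau p k (fun g => g ≤ i) fun g _ => by rw [Finset.mem_range]; omega

theorem YY_eq (p : R.Sp) (k : Fin 3) (i : ℕ) :
    R.YY p k i = ∏ g ∈ Finset.Ioc i (R.n k), tau p k g :=
  prod_tau p k (fun g => i < g) fun g hg => by rw [Finset.mem_Ioc]; omega

theorem eps_eq (p : R.Sp) (k : Fin 3) :
    R.eps p k = ∏ g ∈ Finset.range (R.n k + 1), tau p k g := by
  have := prod_tau p k (fun _ => True) (s := Finset.range (R.n k + 1)) fun g hg => by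
    rw [Finset.mem_range]; simp; omega
  simpa [Region.eps] using this

theorem dom_prod (p : R.Sp) (k : Fin 3) (i j : ℕ) :
    ∏ g : Fin (R.n k + 1), (if i < (g : ℕ) ∧ (g : ℕ) ≤ j then p.1 ⟨k, g⟩ else 1) =
      ∏ g ∈ Finset.Ioc i j, tau p k g :=
  prod_tau p k (fun g => i < g ∧ g ≤ j) fun g _ => by rw [Finset.mem_Ioc]

/-! ### Products of consecutive gaps -/

/-- The product of the gaps `i, .., j - 1`. -/
def J (p : R.Sp) (k : Fin 3) (i j : ℕ) : ℂ := ∏ g ∈ Finset.Ico i j, tau p k g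

theorem J_self (p : R.Sp) (k : Fin 3) (i : ℕ) : J p k i i = 1 := by simp [J]

theorem J_mul (p : R.Sp) (k : Fin 3) {i j l : ℕ} (h1 : i ≤ j) (h2 : j ≤ l) :
    J p k i j * J p k j l = J p k i l := Finset.prod_Ico_consecutive _ h1 h2

theorem J_clip (p : R.Sp) (k : Fin 3) (i j : ℕ) :
    J p k i j = J p k (min i (R.n k + 1)) (min j (R.n k + 1)) := by
  unfold J
  symm
  refine Finset.prod_subset_one_on_sdiff (fun g hg => ?_) (fun g hg => ?_) fun g _ => rfl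
  · rw [Finset.mem_Ico] at hg ⊢; omega
  · rw [Finset.mem_sdiff, Finset.mem_Ico, Finset.mem_Ico] at hg
    refine tau_out p k ?_
    omega

theorem XX_J (p : R.Sp) (k : Fin 3) (i : ℕ) : R.XX p k i = J p k 0 (i + 1) := by
  rw [XX_eq, J, Finset.range_eq_Ico]

theorem YY_J (p : R.Sp) (k : Fin 3) (i : ℕ) : R.YY p k i = J p k (i + 1) (R.n k + 1) := by
  rw [YY_eq, J]
  exact Finset.prod_congr (by ext g; rw [Finset.mem_Ioc, Finset.mem_Ico]; omega) fun _ _ => rfl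

theorem eps_J (p : R.Sp) (k : Fin 3) : R.eps p k = J p k 0 (R.n k + 1) := by
  rw [eps_eq, J, Finset.range_eq_Ico]

theorem Ioc_J (p : R.Sp) (k : Fin 3) (i j : ℕ) :
    ∏ g ∈ Finset.Ioc i j, tau p k g = J p k (i + 1) (j + 1) :=
  Finset.prod_congr (by ext g; rw [Finset.mem_Ioc, Finset.mem_Ico]; omega) fun _ _ => rfl

/-- `X Y = ε`. -/
theorem XX_mul_YY (p : R.Sp) (k : Fin 3) {i : ℕ} (h : i ≤ R.n k) :
    R.XX p k i * R.YY p k i = R.eps p k := by
  rw [XX_J, YY_J, eps_J, J_mul p k (by omega) (by omega)]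

/-- `X_j = X_i μ` for a mark `j` after the mark `i`. -/
theorem XX_mul (p : R.Sp) (k : Fin 3) {i j : ℕ} (h : i ≤ j) :
    R.XX p k i * ∏ g ∈ Finset.Ioc i j, tau p k g = R.XX p k j := by
  rw [XX_J, XX_J, Ioc_J, J_mul p k (by omega) (by omega)]

/-- `Y_i = μ Y_j` for a mark `j` after the mark `i`. -/
theorem mul_YY (p : R.Sp) (k : Fin 3) {i j : ℕ} (h : i ≤ j) (h' : j ≤ R.n k) :
    (∏ g ∈ Finset.Ioc i j, tau p k g) * R.YY p k j = R.YY p k i := by
  rw [YY_J, YY_J, Ioc_J, J_mul p k (by omega) (by omega)]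

theorem Ioc_mul_Ioc (p : R.Sp) (k : Fin 3) {i j l : ℕ} (h1 : i ≤ j) (h2 : j ≤ l) :
    (∏ g ∈ Finset.Ioc i j, tau p k g) * ∏ g ∈ Finset.Ioc j l, tau p k g =
      ∏ g ∈ Finset.Ioc i l, tau p k g := by
  rw [Ioc_J, Ioc_J, Ioc_J, J_mul p k (by omega) (by omega)]

theorem continuous_tau (k : Fin 3) (g : ℕ) : Continuous fun p : R.Sp => tau p k g := by
  unfold tau
  split_ifs with h
  · exact (continuous_apply _).comp continuous_fst
  · exact continuous_const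

theorem continuous_J (k : Fin 3) (i j : ℕ) : Continuous fun p : R.Sp => J p k i j :=
  continuous_finset_prod _ fun g _ => continuous_tau k g

theorem analyticAt_tau (k : Fin 3) (g : ℕ) (p : R.Sp) :
    AnalyticAt ℂ (fun p : R.Sp => tau p k g) p := by
  unfold tau
  split_ifs with h
  · exact ((ContinuousLinearMap.proj (R := ℂ) (φ := fun _ : R.Gap => ℂ) ⟨k, ⟨g, h⟩⟩).comp
      (ContinuousLinearMap.fst ℂ (R.Gap → ℂ) (R.Cm → ℂ))).analyticAt p
  · exact analyticAt_const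

theorem analyticAt_prod_tau (k : Fin 3) (s : Finset ℕ) (p : R.Sp) :
    AnalyticAt ℂ (fun p : R.Sp => ∏ g ∈ s, tau p k g) p :=
  Finset.analyticAt_fun_prod s fun g _ => analyticAt_tau k g p

theorem analyticAt_J (k : Fin 3) (i j : ℕ) (p : R.Sp) :
    AnalyticAt ℂ (fun p : R.Sp => J p k i j) p := analyticAt_prod_tau k _ p

/-! ### The choice of the base -/

section

variable {B : Fin 3 → Finset ℕ} {c : R.Sp}

/-- At a point where exactly the gaps in `B` vanish. -/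
theorem tau_eq_zero_iff (hc : ∀ g : R.Gap, c.1 g = 0 ↔ (g.2 : ℕ) ∈ B g.1)
    (hB : ∀ k, ∀ b ∈ B k, b ≤ R.n k) (k : Fin 3) (g : ℕ) : tau c k g = 0 ↔ g ∈ B k := by
  by_cases h : g < R.n k + 1
  · rw [show tau c k g = c.1 ⟨k, ⟨g, h⟩⟩ from dif_pos h]
    exact hc ⟨k, ⟨g, h⟩⟩
  · rw [tau_out c k (by omega)]
    exact ⟨fun h' => absurd h' one_ne_zero, fun h' => absurd (hB k g h') (by omega)⟩

theorem prod_eq_zero_iff (hc : ∀ g : R.Gap, c.1 g = 0 ↔ (g.2 : ℕ) ∈ B g.1)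
    (hB : ∀ k, ∀ b ∈ B k, b ≤ R.n k) (k : Fin 3) (s : Finset ℕ) :
    ∏ g ∈ s, tau c k g = 0 ↔ ∃ b ∈ B k, b ∈ s := by
  rw [Finset.prod_eq_zero_iff]
  constructor
  · rintro ⟨g, h1, h2⟩; exact ⟨g, (tau_eq_zero_iff hc hB k g).1 h2, h1⟩
  · rintro ⟨g, h1, h2⟩; exact ⟨g, h2, (tau_eq_zero_iff hc hB k g).2 h1⟩

/-- **The choice of the base** near a point `c` where exactly the gaps in `B` vanish (with any other
finite family of functions, e.g. the neck coordinates of the marks on the cores). -/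
theorem exists_base (hc : ∀ g : R.Gap, c.1 g = 0 ↔ (g.2 : ℕ) ∈ B g.1)
    (hB : ∀ k, ∀ b ∈ B k, b ≤ R.n k) {ι : Type*} [Finite ι] {F : ι → R.Sp → ℂ}
    (hF : ∀ i, ContinuousAt (F i) c) {ε₀ : ℝ} (h0 : 0 < ε₀) :
    ∃ ε, 0 < ε ∧ ε < ε₀ ∧ ∀ᶠ p in 𝓝 c,
      (∀ k i j, (∀ b ∈ B k, ¬ (i ≤ b ∧ b < j)) → ε < ‖∏ g ∈ Finset.Ico i j, tau p k g‖) ∧
      (∀ k i j, (∃ b ∈ B k, i ≤ b ∧ b < j) → ‖∏ g ∈ Finset.Ico i j, tau p k g‖ < ε) ∧
      (∀ k i j, (∀ b ∈ B k, ¬ (i < b ∧ b ≤ j)) → ε < ‖∏ g ∈ Finset.Ioc i j, tau p k g‖) ∧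
      (∀ k i j, (∃ b ∈ B k, i < b ∧ b ≤ j) → ‖∏ g ∈ Finset.Ioc i j, tau p k g‖ < ε) ∧
      ∀ i, (F i c ≠ 0 → ε < ‖F i p‖) ∧ (F i c = 0 → ‖F i p‖ < ε) := by
  let f : ((Σ k : Fin 3, Fin (R.n k + 2) × Fin (R.n k + 2)) ⊕ ι) → R.Sp → ℂ :=
    Sum.elim (fun x p => J p x.1 x.2.1 x.2.2) F
  obtain ⟨ε, h1, h2, h3⟩ := exists_eps (f := f) (c := c) (by
    rintro (x | i)
    · exact (continuous_J _ _ _).continuousAt
    · exact hF i) h0
  refine ⟨ε, h1, h2, ?_⟩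
  filter_upwards [h3] with p hp
  have key : ∀ k i j, (J c k i j ≠ 0 → ε < ‖J p k i j‖) ∧ (J c k i j = 0 → ‖J p k i j‖ < ε) := by
    intro k i j
    have := hp (Sum.inl ⟨k, ⟨min i (R.n k + 1), by omega⟩, ⟨min j (R.n k + 1), by omega⟩⟩)
    rw [J_clip c, J_clip p]
    exact this
  have hz : ∀ k i j, J c k i j = 0 ↔ ∃ b ∈ B k, i ≤ b ∧ b < j := by
    intro k i j
    rw [J, prod_eq_zero_iff hc hB]
    simp only [Finset.mem_Ico]
  have A1 : ∀ k i j, (∀ b ∈ B k, ¬ (i ≤ b ∧ b < j)) → ε < ‖J p k i j‖ := fun k i j h =>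
    (key k i j).1 fun h' => by
      obtain ⟨b, hb, hb'⟩ := (hz k i j).1 h'
      exact h b hb hb'
  have A2 : ∀ k i j, (∃ b ∈ B k, i ≤ b ∧ b < j) → ‖J p k i j‖ < ε := fun k i j h =>
    (key k i j).2 ((hz k i j).2 h)
  refine ⟨A1, A2, fun k i j h => ?_, fun k i j h => ?_, fun i => hp (Sum.inr i)⟩
  · rw [Ioc_J]
    exact A1 k _ _ fun b hb hb' => h b hb ⟨by omega, by omega⟩
  · rw [Ioc_J]
    obtain ⟨b, hb, hb'⟩ := h
    exact A2 k _ _ ⟨b, hb, by omega, by omega⟩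

end

end Vale.Agent.P273.H67

end
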