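import Vale.Agent.P273.H67.LimAnn
import Vale.Agent.P273.H970.Meas3
import Vale.Agent.P273.H975.Bd3

/-!
# P273, LIM: the fields `torus` and `annulus` of the steps, from the fibre formula
-/

noncomputable section

namespace Vale.Agent.P273.H67

open H95 H562 H573

/-- the field `torus` -/
theorem torusF {κ : Fin 3 → Fin 3 → ℝ} (hF : ∀ (X : Ext) (Θ : Gauge), LimFib X Θ)
    (X : Ext) (Θ : Gauge) (h : Asy κ Θ) : LimTor X Θ :=
  fun v D hD hw i j hij => H503.limTor (hF X Θ)
    (torInt H970.measDom (H970.contOm X Θ) (H975.bdT X h)) v D hD hw i j hij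

/-- the field `annulus` -/
theorem annulusF {κ : Fin 3 → Fin 3 → ℝ} (hF : ∀ (X : Ext) (Θ : Gauge), LimFib X Θ)
    (X : Ext) (Θ : Gauge) (h : Asy κ Θ) : LimAnn X Θ :=
  limAnn H970.measDom (H970.contOm X Θ) (H975.bdA X h) (hF X Θ)

end Vale.Agent.P273.H67

end
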