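import Mathlib.MeasureTheory.Integral.Pi
import Mathlib.MeasureTheory.Integral.Prod
import Mathlib.MeasureTheory.Integral.IntegralEqImproper
import Mathlib.Analysis.SpecialFunctions.ImproperIntegrals
import Mathlib.MeasureTheory.Measure.Lebesgue.VolumeOfBalls

/-!
# P273, LIM, step 2: the majorant on the fibre coordinates
-/

noncomputable section

namespace Vale.Agent.P273.H67

open Set Filter MeasureTheory
open scoped Topology

/-! ### one variable -/

/-- `max (exp (-u)) (1 / Y)` on `(0, Y)` -/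
def hm (Y u : ℝ) : ℝ := (Ioo (0 : ℝ) Y).indicator (fun u => max (Real.exp (-u)) (1 / Y)) u

theorem hm_nonneg (Y u : ℝ) : 0 ≤ hm Y u :=
  Set.indicator_nonneg (fun _ _ => le_max_of_le_left (Real.exp_pos _).le) _

/-- the sum that bounds it -/
def hs (Y u : ℝ) : ℝ := (Ioi (0 : ℝ)).indicator (fun u => Real.exp (-u)) u +
  (Ioo (0 : ℝ) Y).indicator (fun _ => 1 / Y) u

theorem hm_le {Y : ℝ} (hY : 0 < Y) (u : ℝ) : hm Y u ≤ hs Y u := by
  unfold hm hs
  by_cases h : u ∈ Ioo 0 Y
  · rw [indicator_of_mem h, indicator_of_mem (show u ∈ Ioi 0 from h.1), indicator_of_mem h]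
    exact max_le (le_add_of_nonneg_right (by positivity))
      (le_add_of_nonneg_left (Real.exp_pos _).le)
  · rw [indicator_of_notMem h, indicator_of_notMem h]
    exact add_nonneg (indicator_nonneg (fun _ _ => (Real.exp_pos _).le) _) le_rfl

theorem measurable_hm (Y : ℝ) : Measurable (hm Y) :=
  ((Real.measurable_exp.comp measurable_neg).max measurable_const).indicator measurableSet_Ioo

theorem integrable_exp_ind :
    Integrable (fun u : ℝ => (Ioi (0 : ℝ)).indicator (fun u => Real.exp (-u)) u) :=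
  (integrable_indicator_iff measurableSet_Ioi).2 (integrableOn_exp_neg_Ioi 0)

theorem integrable_const_ind (Y : ℝ) :
    Integrable (fun u : ℝ => (Ioo (0 : ℝ) Y).indicator (fun _ => 1 / Y) u) :=
  (integrable_indicator_iff measurableSet_Ioo).2 (integrableOn_const (by simp) (by simp))

theorem integrable_hs (Y : ℝ) : Integrable (hs Y) :=
  integrable_exp_ind.add (integrable_const_ind Y)

theorem integrable_hm {Y : ℝ} (hY : 0 < Y) : Integrable (hm Y) := by
  refine (integrable_hs Y).mono' (measurable_hm Y).aestronglyMeasurable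
    (Eventually.of_forall fun u => ?_)
  rw [Real.norm_of_nonneg (hm_nonneg Y u)]
  exact hm_le hY u

theorem integral_hs {Y : ℝ} (hY : 0 < Y) : ∫ u, hs Y u = 2 := by
  unfold hs
  rw [integral_add integrable_exp_ind (integrable_const_ind Y),
    integral_indicator measurableSet_Ioi, integral_indicator measurableSet_Ioo,
    integral_exp_neg_Ioi_zero, setIntegral_const]
  simp only [Measure.real, Real.volume_Ioo, sub_zero, smul_eq_mul]
  rw [ENNReal.toReal_ofReal hY.le]
  field_simp
  norm_num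

theorem integral_hm_le {Y : ℝ} (hY : 0 < Y) : ∫ u, hm Y u ≤ 2 := by
  rw [← integral_hs hY]
  exact integral_mono (integrable_hm hY) (integrable_hs Y) fun u => hm_le hY u

/-! ### the fibre -/

section Fib

variable {I J : Type} [Fintype I] [Fintype J]

/-- the majorant -/
def mj (Y : I → ℝ) (x : ((I → ℝ) × (I → ℝ)) × (J → ℂ)) : ℝ :=
  ((∏ i, hm (Y i) (x.1.1 i)) *
    ∏ i, (Ioc (-Real.pi) Real.pi).indicator (fun _ => (1 : ℝ)) (x.1.2 i)) *
    ∏ j, (Metric.ball (0 : ℂ) 12).indicator (fun _ => (1 : ℝ)) (x.2 j)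

theorem mj_nonneg (Y : I → ℝ) (x : ((I → ℝ) × (I → ℝ)) × (J → ℂ)) : 0 ≤ mj Y x :=
  mul_nonneg (mul_nonneg (Finset.prod_nonneg fun i _ => hm_nonneg _ _)
    (Finset.prod_nonneg fun _ _ => indicator_nonneg (fun _ _ => zero_le_one) _))
    (Finset.prod_nonneg fun _ _ => indicator_nonneg (fun _ _ => zero_le_one) _)

/-- the bound of its integral -/
def mjK (I J : Type) [Fintype I] [Fintype J] : ℝ :=
  (2 ^ Fintype.card I * (2 * Real.pi) ^ Fintype.card I) *
    (volume.real (Metric.ball (0 : ℂ) 12)) ^ Fintype.card J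

theorem mjK_nonneg : 0 ≤ mjK I J := by unfold mjK; positivity

theorem integrable_ind1 : Integrable (fun u : ℝ =>
    (Ioc (-Real.pi) Real.pi).indicator (fun _ => (1 : ℝ)) u) :=
  (integrable_indicator_iff measurableSet_Ioc).2 (integrableOn_const (by simp) (by simp))

theorem integrable_ind2 : Integrable (fun u : ℂ =>
    (Metric.ball (0 : ℂ) 12).indicator (fun _ => (1 : ℝ)) u) :=
  (integrable_indicator_iff measurableSet_ball).2
    (integrableOn_const measure_ball_lt_top.ne (by simp))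

theorem integrable_mj {Y : I → ℝ} (hY : ∀ i, 0 < Y i) :
    Integrable (mj (J := J) Y) := by
  have h1 : Integrable (fun u : I → ℝ => ∏ i, hm (Y i) (u i)) :=
    Integrable.fintype_prod_dep (𝕜 := ℝ) (E := fun _ => ℝ) (f := fun i => hm (Y i))
      fun i => integrable_hm (hY i)
  have h2 : Integrable (fun u : I → ℝ =>
      ∏ i, (Ioc (-Real.pi) Real.pi).indicator (fun _ => (1 : ℝ)) (u i)) :=
    Integrable.fintype_prod_dep (𝕜 := ℝ) (E := fun _ => ℝ)
      (f := fun _ => (Ioc (-Real.pi) Real.pi).indicator (fun _ => (1 : ℝ)))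
      fun _ => integrable_ind1
  have h3 : Integrable (fun u : J → ℂ =>
      ∏ i, (Metric.ball (0 : ℂ) 12).indicator (fun _ => (1 : ℝ)) (u i)) :=
    Integrable.fintype_prod_dep (𝕜 := ℝ) (E := fun _ => ℂ)
      (f := fun _ => (Metric.ball (0 : ℂ) 12).indicator (fun _ => (1 : ℝ)))
      fun _ => integrable_ind2
  exact (h1.mul_prod h2).mul_prod h3

theorem integral_mj_le {Y : I → ℝ} (hY : ∀ i, 0 < Y i) :
    ∫ x, mj (J := J) Y x ≤ mjK I J := by
  have e1 : ∫ x, mj (J := J) Y x = ((∫ u : I → ℝ, ∏ i, hm (Y i) (u i)) *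
      ∫ u : I → ℝ, ∏ i, (Ioc (-Real.pi) Real.pi).indicator (fun _ => (1 : ℝ)) (u i)) *
      ∫ u : J → ℂ, ∏ i, (Metric.ball (0 : ℂ) 12).indicator (fun _ => (1 : ℝ)) (u i) := by
    have a := integral_prod_mul (μ := (volume : Measure ((I → ℝ) × (I → ℝ))))
      (ν := (volume : Measure (J → ℂ)))
      (fun x : (I → ℝ) × (I → ℝ) => (∏ i, hm (Y i) (x.1 i)) *
        ∏ i, (Ioc (-Real.pi) Real.pi).indicator (fun _ => (1 : ℝ)) (x.2 i))
      (fun x : J → ℂ => ∏ j, (Metric.ball (0 : ℂ) 12).indicator (fun _ => (1 : ℝ)) (x j))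
    have b := integral_prod_mul (μ := (volume : Measure (I → ℝ)))
      (ν := (volume : Measure (I → ℝ)))
      (fun x : I → ℝ => ∏ i, hm (Y i) (x i))
      (fun x : I → ℝ => ∏ i, (Ioc (-Real.pi) Real.pi).indicator (fun _ => (1 : ℝ)) (x i))
    rw [← b]
    exact a
  rw [e1, integral_fintype_prod_volume_eq_prod (𝕜 := ℝ) (E := fun _ => ℝ) (fun i => hm (Y i)),
    integral_fintype_prod_volume_eq_prod (𝕜 := ℝ) (E := fun _ : I => ℝ)
      (fun _ => (Ioc (-Real.pi) Real.pi).indicator (fun _ => (1 : ℝ))),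
    integral_fintype_prod_volume_eq_prod (𝕜 := ℝ) (E := fun _ : J => ℂ)
      (fun _ => (Metric.ball (0 : ℂ) 12).indicator (fun _ => (1 : ℝ)))]
  unfold mjK
  have c1 : ∏ i, ∫ x, hm (Y i) x ≤ 2 ^ Fintype.card I := by
    refine (Finset.prod_le_prod (fun i _ => integral_nonneg fun u => hm_nonneg _ _)
      fun i _ => integral_hm_le (hY i)).trans ?_
    simp
  have c2 : (∏ _i : I, ∫ x, (Ioc (-Real.pi) Real.pi).indicator (fun _ => (1 : ℝ)) x) =
      (2 * Real.pi) ^ Fintype.card I := by
    rw [Finset.prod_const, integral_indicator measurableSet_Ioc, setIntegral_const]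
    simp only [Measure.real, Real.volume_Ioc, smul_eq_mul, mul_one, Finset.card_univ]
    rw [ENNReal.toReal_ofReal (by linarith [Real.pi_pos])]
    ring
  have c3 : (∏ _j : J, ∫ x, (Metric.ball (0 : ℂ) 12).indicator (fun _ => (1 : ℝ)) x) =
      (volume.real (Metric.ball (0 : ℂ) 12)) ^ Fintype.card J := by
    rw [Finset.prod_const, integral_indicator measurableSet_ball, setIntegral_const]
    simp
  rw [c2, c3]
  refine mul_le_mul_of_nonneg_right (mul_le_mul_of_nonneg_right c1 ?_) ?_
  · positivity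
  · positivity

end Fib

end Vale.Agent.P273.H67

end
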