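import Vale.Agent.P273.H562.RegDefs
import Vale.Agent.P273.H67.Maj

/-!
# P273, LIM, step 2: the fibre integral over a region is integrable in the base parameters
-/

noncomputable section

namespace Vale.Agent.P273.H67

open Set Filter MeasureTheory H681 H95 H732 H973 H562 H573
open scoped Topology ContDiff

variable (R : H95.Region) (m : ∀ k, Fin (R.n k + 1))

/-! ### the majorant on the domain -/

theorem lt_of_domF {far : R.Cm → Bool} {y α : Fin 3 → ℝ} {x : Fb R m} (hx : x ∈ domF R m far y α)
    (f : (W R m).Fr) : x.1.1 f < y ((W R m).nk f.1) := by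
  have h1 := (hx.1 f).2
  have h2 : (W R m).ul (mk R m y α x) ((W R m).nk f.1) ≤ y ((W R m).nk f.1) := by
    unfold H732.Reg.ul
    have h3 : (0 : ℝ) ≤ ∑ f' : (W R m).Fr,
        if (W R m).nk f'.1 = (W R m).nk f.1 then (mk R m y α x).1 f' else 0 := by
      refine Finset.sum_nonneg fun f' _ => ?_
      split_ifs
      · exact (hx.1 f').1.le
      · exact le_rfl
    have h4 : (mk R m y α x).2.2.1 ((W R m).nk f.1) = y ((W R m).nk f.1) := rfl
    rw [h4]
    linarith
  linarith

theorem norm_lt_of_zone {far : Bool} {y α : Fin 3 → ℝ} {w : ℂ} (hw : w ∈ zone y α far) :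
    ‖w‖ < 12 := by
  unfold zone at hw
  split_ifs at hw
  · have := hw.2
    linarith
  · have := hw.1
    linarith

theorem prod_le_mj {far : R.Cm → Bool} {y α : Fin 3 → ℝ} {x : Fb R m}
    (hx : x ∈ domF R m far y α) :
    ∏ f : (W R m).Fr, max (Real.exp (-x.1.1 f)) (1 / y ((W R m).nk f.1)) =
      mj (I := (W R m).Fr) (J := R.Cm) (fun f => y ((W R m).nk f.1)) x := by
  unfold mj
  have h2 : ∏ i : (W R m).Fr, (Ioc (-Real.pi) Real.pi).indicator (fun _ => (1 : ℝ)) (x.1.2 i)
      = 1 := Finset.prod_eq_one fun f _ => indicator_of_mem (hx.2.1 f) _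
  have h3 : ∏ j : R.Cm, (Metric.ball (0 : ℂ) 12).indicator (fun _ => (1 : ℝ)) (x.2 j) = 1 :=
    Finset.prod_eq_one fun c _ => indicator_of_mem
      (mem_ball_zero_iff.2 (norm_lt_of_zone (hx.2.2 c))) _
  rw [h2, h3, mul_one, mul_one]
  refine Finset.prod_congr rfl fun f _ => ?_
  unfold hm
  rw [indicator_of_mem (show x.1.1 f ∈ Ioo 0 (y ((W R m).nk f.1)) from
    ⟨(hx.1 f).1, lt_of_domF R m hx f⟩)]

/-! ### the general lemma -/

section Gen

variable {Q : Type} [TopologicalSpace Q] [MeasurableSpace Q] [OpensMeasurableSpace Q]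
  [SecondCountableTopology Q]

instance : OpensMeasurableSpace (Fb R m) := inferInstance

theorem opens_prod : OpensMeasurableSpace (Q × Fb R m) := Prod.opensMeasurableSpace

/-- the points of the chart where the form is continuous -/
def Dq (N₀ : ℝ) (far : R.Cm → Bool) : Set (BF R m) :=
  {q | (∀ k, N₀ ≤ q.1.1 k) ∧ (∀ k, -7 ≤ q.1.2 k ∧ q.1.2 k ≤ 1) ∧ q.2 ∈ domF R m far q.1.1 q.1.2}

/-- the domain on the product -/
def Sq (P : Set Q) (far : R.Cm → Bool) (Y A : Q → Fin 3 → ℝ) : Set (Q × Fb R m) :=
  {z | z.1 ∈ P ∧ z.2 ∈ domF R m far (Y z.1) (A z.1)}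

theorem continuous_bf {Y A : Q → Fin 3 → ℝ} (hY : Continuous Y) (hA : Continuous A) :
    Continuous fun z : Q × Fb R m => (((Y z.1, A z.1), z.2) : BF R m) :=
  ((hY.comp continuous_fst).prodMk (hA.comp continuous_fst)).prodMk continuous_snd

theorem measurableSet_Sq (hM : MeasDom) {P : Set Q} (hP : MeasurableSet P) (far : R.Cm → Bool)
    {Y A : Q → Fin 3 → ℝ} (hY : Continuous Y) (hA : Continuous A) :
    MeasurableSet (Sq R m P far Y A) := by
  have h1 : Measurable fun z : Q × Fb R m => (((Y z.1, A z.1), z.2) : BF R m) :=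
    ((hY.measurable.comp measurable_fst).prodMk (hA.measurable.comp measurable_fst)).prodMk
      measurable_snd
  exact (measurable_fst hP).inter (h1 (hM R m far))

theorem measurableSet_domF (hM : MeasDom) (far : R.Cm → Bool) (y α : Fin 3 → ℝ) :
    MeasurableSet (domF R m far y α) := by
  have h1 : Measurable fun x : Fb R m => (((y, α), x) : BF R m) :=
    measurable_const.prodMk measurable_id
  exact h1 (hM R m far)

omit [OpensMeasurableSpace Q] [SecondCountableTopology Q] [TopologicalSpace Q] in
/-- **integrability of the fibre integrals**, for a measurable function on the chart -/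
theorem integrable_fq (μ : Measure Q) [SFinite μ] (far : R.Cm → Bool) {φ : BF R m → ℝ}
    {P : Set Q} (hP : MeasurableSet P) {Y A : Q → Fin 3 → ℝ}
    (hF : AEStronglyMeasurable ((Sq R m P far Y A).indicator
      fun z => φ ((Y z.1, A z.1), z.2)) (μ.prod (volume : Measure (Fb R m))))
    (hY₀ : ∀ q ∈ P, ∀ k, 0 < Y q k)
    {g : Q → ℝ} (hg : IntegrableOn g P μ)
    (hbd : ∀ q ∈ P, ∀ x ∈ domF R m far (Y q) (A q), |φ ((Y q, A q), x)| ≤
      g q * ∏ f : (W R m).Fr, max (Real.exp (-x.1.1 f)) (1 / Y q ((W R m).nk f.1))) :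
    Integrable ((Sq R m P far Y A).indicator fun z => φ ((Y z.1, A z.1), z.2))
      (μ.prod (volume : Measure (Fb R m))) := by
  have hK : 0 ≤ mjK (W R m).Fr R.Cm := mjK_nonneg
  have hle : ∀ (q : Q) (x : Fb R m),
      ‖(Sq R m P far Y A).indicator (fun z => φ ((Y z.1, A z.1), z.2)) (q, x)‖ ≤
        P.indicator (fun q => |g q|) q *
          mj (I := (W R m).Fr) (J := R.Cm) (fun f => Y q ((W R m).nk f.1)) x := by
    intro q x
    by_cases hz : (q, x) ∈ Sq R m P far Y A
    · rw [indicator_of_mem hz, indicator_of_mem (show q ∈ P from hz.1), Real.norm_eq_abs]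
      refine (hbd q hz.1 x hz.2).trans ?_
      rw [prod_le_mj R m hz.2]
      exact mul_le_mul_of_nonneg_right (le_abs_self _) (mj_nonneg _ _)
    · rw [indicator_of_notMem hz, norm_zero]
      exact mul_nonneg (indicator_nonneg (fun _ _ => abs_nonneg _) _) (mj_nonneg _ _)
  have hmj : ∀ q ∈ P, Integrable (mj (I := (W R m).Fr) (J := R.Cm)
      (fun f => Y q ((W R m).nk f.1))) := fun q hq =>
    integrable_mj fun f => hY₀ q hq _
  have hint : ∀ q, Integrable (fun x : Fb R m => P.indicator (fun q => |g q|) q *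
      mj (I := (W R m).Fr) (J := R.Cm) (fun f => Y q ((W R m).nk f.1)) x) := by
    intro q
    by_cases hq : q ∈ P
    · exact (hmj q hq).const_mul _
    · rw [indicator_of_notMem hq]
      simp
  refine (integrable_prod_iff hF).2 ⟨?_, ?_⟩
  · filter_upwards [hF.prodMk_left] with q hq
    exact (hint q).mono' hq (Eventually.of_forall fun x => hle q x)
  · have hgi : Integrable (fun q => P.indicator (fun q => |g q|) q * mjK (W R m).Fr R.Cm) μ :=
      ((integrable_indicator_iff hP).2 hg.abs).mul_const _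
    refine hgi.mono' hF.norm.integral_prod_right' (Eventually.of_forall fun q => ?_)
    rw [Real.norm_of_nonneg (integral_nonneg fun x => norm_nonneg _)]
    refine (integral_mono_of_nonneg (Eventually.of_forall fun x => norm_nonneg _) (hint q)
      (Eventually.of_forall fun x => hle q x)).trans ?_
    rw [integral_const_mul]
    by_cases hq : q ∈ P
    · exact mul_le_mul_of_nonneg_left (integral_mj_le fun f => hY₀ q hq _)
        (indicator_nonneg (fun _ _ => abs_nonneg _) _)
    · rw [indicator_of_notMem hq]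
      simp

/-- measurability from continuity -/
theorem aesm_fq (μ : Measure Q) (hM : MeasDom) {N₀ : ℝ} (far : R.Cm → Bool) {φ : BF R m → ℝ}
    (hC : ContinuousOn φ (Dq R m N₀ far)) {P : Set Q} (hP : MeasurableSet P)
    {Y A : Q → Fin 3 → ℝ} (hY : Continuous Y) (hA : Continuous A)
    (hY₀ : ∀ q ∈ P, ∀ k, N₀ ≤ Y q k) (hA₀ : ∀ q ∈ P, ∀ k, -7 ≤ A q k ∧ A q k ≤ 1) :
    AEStronglyMeasurable ((Sq R m P far Y A).indicator
      fun z => φ ((Y z.1, A z.1), z.2)) (μ.prod (volume : Measure (Fb R m))) := by
  have hS := measurableSet_Sq R m hM hP far hY hA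
  have h3 : ContinuousOn (fun z : Q × Fb R m => φ ((Y z.1, A z.1), z.2)) (Sq R m P far Y A) :=
    hC.comp (continuous_bf R m hY hA).continuousOn fun z hz =>
      ⟨hY₀ z.1 hz.1, hA₀ z.1 hz.1, hz.2⟩
  have := opens_prod R m (Q := Q)
  exact (aestronglyMeasurable_indicator_iff hS).2 (h3.aestronglyMeasurable hS)

/-- **the fibre integral is integrable in the parameters** -/
theorem integrableOn_fq (μ : Measure Q) [SFinite μ] (hM : MeasDom) (far : R.Cm → Bool)
    {φ : BF R m → ℝ} {P : Set Q} (hP : MeasurableSet P) {Y A : Q → Fin 3 → ℝ}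
    (hF : AEStronglyMeasurable ((Sq R m P far Y A).indicator
      fun z => φ ((Y z.1, A z.1), z.2)) (μ.prod (volume : Measure (Fb R m))))
    (hY₀ : ∀ q ∈ P, ∀ k, 0 < Y q k)
    {g : Q → ℝ} (hg : IntegrableOn g P μ)
    (hbd : ∀ q ∈ P, ∀ x ∈ domF R m far (Y q) (A q), |φ ((Y q, A q), x)| ≤
      g q * ∏ f : (W R m).Fr, max (Real.exp (-x.1.1 f)) (1 / Y q ((W R m).nk f.1))) :
    IntegrableOn (fun q => ∫ x in domF R m far (Y q) (A q), φ ((Y q, A q), x)) P μ := by
  have h := (integrable_fq R m μ far hP hF hY₀ hg hbd).integral_prod_left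
  rw [← integrable_indicator_iff hP]
  refine h.congr (Eventually.of_forall fun q => ?_)
  by_cases hq : q ∈ P
  · rw [indicator_of_mem hq, ← integral_indicator (measurableSet_domF R m hM far _ _)]
    refine integral_congr_ae (Eventually.of_forall fun x => ?_)
    beta_reduce
    by_cases hx : x ∈ domF R m far (Y q) (A q)
    · rw [indicator_of_mem hx, indicator_of_mem (show (q, x) ∈ Sq R m P far Y A from ⟨hq, hx⟩)]
    · rw [indicator_of_notMem hx,
        indicator_of_notMem (show (q, x) ∉ Sq R m P far Y A from fun h => hx h.2)]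
  · rw [indicator_of_notMem hq]
    beta_reduce
    have h0 : ∀ x : Fb R m, (Sq R m P far Y A).indicator
        (fun z => φ ((Y z.1, A z.1), z.2)) (q, x) = 0 := fun x =>
      indicator_of_notMem (show (q, x) ∉ Sq R m P far Y A from fun h => hq h.1) _
    rw [integral_congr_ae (Eventually.of_forall h0), integral_zero]

end Gen

/-! ### the frames -/

theorem fr30_smul (a b : Co R m) (c : ℝ) (w : Alt (16 + 14) (Co R m)) :
    w (fr30 R m a (c • b)) = c * w (fr30 R m a b) := by
  have h : fr30 R m a (c • b) =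
      Function.update (fr30 R m a b) (Fin.natAdd 28 (1 : Fin 2)) (c • b) := by
    funext i
    refine Fin.addCases (m := 28) (n := 2) (fun i => ?_) (fun i => ?_) i
    · rw [Function.update_of_ne]
      · unfold fr30
        rw [Fin.append_left, Fin.append_left]
      · intro h
        have := congrArg Fin.val h
        simp at this
        omega
    · fin_cases i
      · rw [Function.update_of_ne]
        · unfold fr30
          rw [Fin.append_right, Fin.append_right]
          rfl
        · intro h
          have := congrArg Fin.val h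
          simp at this
      · change _ = Function.update (fr30 R m a b) (Fin.natAdd 28 (1 : Fin 2)) (c • b)
          (Fin.natAdd 28 (1 : Fin 2))
        rw [Function.update_self]
        unfold fr30
        rw [Fin.append_right]
        rfl
  rw [h, w.map_update_smul]
  have h2 : Function.update (fr30 R m a b) (Fin.natAdd 28 (1 : Fin 2)) b = fr30 R m a b := by
    have h3 : fr30 R m a b (Fin.natAdd 28 (1 : Fin 2)) = b := by
      unfold fr30
      rw [Fin.append_right]
      rfl
    conv_lhs => rw [← h3]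
    exact Function.update_eq_self _ _
  have h4 : Function.update (fr30 R m a b) (Fin.natAdd 28 (1 : Fin 2)) b =
      fr30 R m a b := h2
  rw [smul_eq_mul]
  congr 1
  exact congrArg w h4

theorem fr30_smul0 (a b : Co R m) (c : ℝ) (w : Alt (16 + 14) (Co R m)) :
    w (fr30 R m (c • a) b) = c * w (fr30 R m a b) := by
  have h : fr30 R m (c • a) b =
      Function.update (fr30 R m a b) (Fin.natAdd 28 (0 : Fin 2)) (c • a) := by
    funext i
    refine Fin.addCases (m := 28) (n := 2) (fun i => ?_) (fun i => ?_) i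
    · rw [Function.update_of_ne]
      · unfold fr30
        rw [Fin.append_left, Fin.append_left]
      · intro h
        have := congrArg Fin.val h
        simp at this
        omega
    · fin_cases i
      · change _ = Function.update (fr30 R m a b) (Fin.natAdd 28 (0 : Fin 2)) (c • a)
          (Fin.natAdd 28 (0 : Fin 2))
        rw [Function.update_self]
        unfold fr30
        rw [Fin.append_right]
        rfl
      · rw [Function.update_of_ne]
        · unfold fr30
          rw [Fin.append_right, Fin.append_right]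
          rfl
        · intro h
          have := congrArg Fin.val h
          simp at this
  rw [h, w.map_update_smul]
  have h2 : Function.update (fr30 R m a b) (Fin.natAdd 28 (0 : Fin 2)) a = fr30 R m a b := by
    have h3 : fr30 R m a b (Fin.natAdd 28 (0 : Fin 2)) = a := by
      unfold fr30
      rw [Fin.append_right]
      rfl
    conv_lhs => rw [← h3]
    exact Function.update_eq_self _ _
  rw [smul_eq_mul]
  congr 1
  exact congrArg w h2

theorem continuousOn_fr30 {Z : Type} [TopologicalSpace Z] {S : Set Z} {a b : Z → Co R m}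
    (ha : ContinuousOn a S) (hb : ContinuousOn b S) :
    ContinuousOn (fun z => fr30 R m (a z) (b z)) S := by
  refine continuousOn_pi.2 fun i => ?_
  unfold fr30
  refine Fin.addCases (m := 28) (n := 2) (fun i => ?_) (fun i => ?_) i
  · simp only [Fin.append_left]
    exact continuousOn_const
  · simp only [Fin.append_right]
    fin_cases i
    · exact ha
    · exact hb

/-- the scalar function of a form and two vector fields on the chart -/
def phs (om : Co R m → Alt (16 + 14) (Co R m)) (a b : Co R m → Co R m) (y α : Fin 3 → ℝ)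
    (x : Fb R m) : ℝ :=
  om (H573.mk R m y α x) (fr30 R m (a (H573.mk R m y α x)) (b (H573.mk R m y α x)))

/-- the same on the product -/
def phq (om : Co R m → Alt (16 + 14) (Co R m)) (a b : Co R m → Co R m) (q : BF R m) : ℝ :=
  phs R m om a b q.1.1 q.1.2 q.2

theorem phs_const (om : Co R m → Alt (16 + 14) (Co R m)) (a b : Co R m) (y α : Fin 3 → ℝ)
    (x : Fb R m) : phs R m om (fun _ => a) (fun _ => b) y α x =
      om (H573.mk R m y α x) (fr30 R m a b) := rfl

theorem phs_eul (om : Co R m → Alt (16 + 14) (Co R m)) (i : Fin 3) (b : Co R m)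
    (y α : Fin 3 → ℝ) (x : Fb R m) :
    phs R m om (fun p => (W R m).eul p i) (fun _ => b) y α x =
      om (H573.mk R m y α x) (fr30 R m ((W R m).eul (H573.mk R m y α x) i) b) := rfl

theorem phs_smul (om : Co R m → Alt (16 + 14) (Co R m)) (a : Co R m → Co R m) (b : Co R m)
    (c : ℝ) (y α : Fin 3 → ℝ) (x : Fb R m) :
    phs R m om a (fun _ => c • b) y α x = c * phs R m om a (fun _ => b) y α x :=
  fr30_smul R m _ _ c _

theorem phs_smul2 (om : Co R m → Alt (16 + 14) (Co R m)) (a b : Co R m)
    (c d : ℝ) (y α : Fin 3 → ℝ) (x : Fb R m) :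
    phs R m om (fun _ => c • a) (fun _ => d • b) y α x =
      c * d * phs R m om (fun _ => a) (fun _ => b) y α x := by
  unfold phs
  rw [fr30_smul0, fr30_smul, mul_assoc]

theorem IR_eq (X : Ext) (Θ : Gauge) (T : MT) (far : R.Cm → Bool) (y α : Fin 3 → ℝ)
    (a b : Co R m → Co R m) : IR R m X Θ T far y α a b =
      ∫ x in domF R m far y α, phs R m (OmR R m X Θ T (Sx R far)) a b y α x :=
  Eq.trans rfl rfl

theorem continuousOn_eval {Z V : Type} [TopologicalSpace Z] [NormedAddCommGroup V]
    [NormedSpace ℝ V] {n : ℕ} {f : Z → V [⋀^Fin n]→L[ℝ] ℝ} {v : Z → Fin n → V} {S : Set Z}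
    (hf : ContinuousOn f S) (hv : ContinuousOn v S) : ContinuousOn (fun z => f z (v z)) S :=
  fun z hz => H732.Reg.tendsto_eval (hf z hz) (hv z hz)

theorem continuous_mk : Continuous fun q : BF R m => H573.mk R m q.1.1 q.1.2 q.2 := by
  unfold H573.mk
  fun_prop

theorem continuousOn_phq {N₀ : ℝ} (hN₀ : 0 < N₀) (far : R.Cm → Bool)
    {om : Co R m → Alt (16 + 14) (Co R m)}
    (hC : ContinuousOn (fun q : BF R m => om (H573.mk R m q.1.1 q.1.2 q.2)) (Dq R m N₀ far))
    {a b : Co R m → Co R m}
    (ha : ContinuousOn a {p | ∀ k, 0 < p.2.2.1 k})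
    (hb : ContinuousOn b {p | ∀ k, 0 < p.2.2.1 k}) :
    ContinuousOn (phq R m om a b) (Dq R m N₀ far) := by
  have hpos : MapsTo (fun q : BF R m => H573.mk R m q.1.1 q.1.2 q.2) (Dq R m N₀ far)
      {p | ∀ k, 0 < p.2.2.1 k} := fun z hz k => hN₀.trans_le (hz.1 k)
  have h2 : ContinuousOn (fun q : BF R m => fr30 R m (a (H573.mk R m q.1.1 q.1.2 q.2))
      (b (H573.mk R m q.1.1 q.1.2 q.2))) (Dq R m N₀ far) :=
    continuousOn_fr30 R m (ha.comp (continuous_mk R m).continuousOn hpos)
      (hb.comp (continuous_mk R m).continuousOn hpos)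
  exact continuousOn_eval hC h2

/-- **the general lemma in the form of `IR`** -/
theorem integrableOn_phs {Q : Type} [TopologicalSpace Q] [MeasurableSpace Q]
    [OpensMeasurableSpace Q] [SecondCountableTopology Q] (μ : Measure Q) [SFinite μ]
    (hM : MeasDom) (far : R.Cm → Bool) {om : Co R m → Alt (16 + 14) (Co R m)} {N₀ : ℝ}
    (hN₀ : 0 < N₀)
    (hC : ContinuousOn (fun q : BF R m => om (H573.mk R m q.1.1 q.1.2 q.2)) (Dq R m N₀ far))
    {a b : Co R m → Co R m}
    (ha : ContinuousOn a {p | ∀ k, 0 < p.2.2.1 k})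
    (hb : ContinuousOn b {p | ∀ k, 0 < p.2.2.1 k})
    {P : Set Q} (hP : MeasurableSet P) {Y A : Q → Fin 3 → ℝ} (hY : Continuous Y)
    (hA : Continuous A) (hY₀ : ∀ q ∈ P, ∀ k, N₀ ≤ Y q k)
    (hA₀ : ∀ q ∈ P, ∀ k, -7 ≤ A q k ∧ A q k ≤ 1)
    {g : Q → ℝ} (hg : IntegrableOn g P μ)
    (hbd : ∀ q ∈ P, ∀ x ∈ domF R m far (Y q) (A q), |phs R m om a b (Y q) (A q) x| ≤
      g q * ∏ f : (W R m).Fr, max (Real.exp (-x.1.1 f)) (1 / Y q ((W R m).nk f.1))) :
    IntegrableOn (fun q => ∫ x in domF R m far (Y q) (A q), phs R m om a b (Y q) (A q) x) P μ :=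
  integrableOn_fq R m μ hM far (φ := phq R m om a b) hP
    (aesm_fq R m μ hM far (continuousOn_phq R m hN₀ far hC ha hb) hP hY hA hY₀ hA₀)
    (fun q hq k => hN₀.trans_le (hY₀ q hq k)) hg hbd

theorem continuousOn_eul (i : Fin 3) :
    ContinuousOn (fun p : Co R m => (W R m).eul p i) {p | ∀ k, 0 < p.2.2.1 k} := by
  unfold H732.Reg.eul
  refine ContinuousOn.prodMk ?_ continuousOn_const
  refine continuousOn_pi.2 fun f => ?_
  split_ifs
  · refine ContinuousOn.div ?_ ?_ fun p hp => (hp i).ne'
    · exact ((continuous_apply f).comp continuous_fst).continuousOn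
    · exact ((continuous_apply i).comp (continuous_fst.comp
        (continuous_snd.comp continuous_snd))).continuousOn
  · exact continuousOn_const

end Vale.Agent.P273.H67

end
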