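import Vale.Agent.P273.H67.IRInt
import Vale.Agent.P273.H503.LimTor

/-!
# P273, LIM, step 2: integrability over the tori and the annuli, the annuli in the chart
-/

noncomputable section

namespace Vale.Agent.P273.H67

open Set Filter MeasureTheory H681 H95 H732 H973 H562 H573
open scoped Topology ContDiff

variable (R : H95.Region) (m : ∀ k, Fin (R.n k + 1))

/-! ### tori -/

theorem continuous_aT (i j : Fin 3) : Continuous fun s : Fin 2 → ℝ => aT i j s := by
  refine continuous_pi fun k => ?_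
  unfold aT
  split_ifs <;> fun_prop

/-- **the contributions of the regions to the torus are integrable** -/
theorem torInt {X : Ext} {Θ : Gauge} (hM : MeasDom) (hC : ContOm X Θ) (hB : BdT X Θ) :
    H503.TorInt X Θ := by
  intro v hw
  obtain ⟨N₁, hC⟩ := hC
  obtain ⟨C, N₂, hN₂, hB⟩ := hB (H503.mtV v) (H503.symT_mtV v) hw
  refine ⟨max N₁ N₂, fun N hN i j _ R m far => ?_⟩
  have h1 : N₁ ≤ N := (le_max_left _ _).trans hN
  have h2 : N₂ ≤ N := (le_max_right _ _).trans hN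
  have h0 : 0 < N := by linarith
  have hcont : ContinuousOn (fun q : BF R m =>
      OmR R m X Θ (H503.mtV v) (Sx R far) (H573.mk R m q.1.1 q.1.2 q.2)) (Dq R m N far) :=
    (hC (H503.mtV v) (H503.symT_mtV v) R m far).mono
      fun q hq => ⟨fun k => h1.trans (hq.1 k), hq.2.1, hq.2.2⟩
  have hP : MeasurableSet (Icc (0 : Fin 2 → ℝ) 1) := measurableSet_Icc
  have hA₀ : ∀ q ∈ Icc (0 : Fin 2 → ℝ) 1, ∀ k, -7 ≤ aT i j q k ∧ aT i j q k ≤ 1 :=
    fun q hq k => H503.aT_mem i j hq k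
  have hg : IntegrableOn (fun _ : Fin 2 → ℝ => (-2 * Real.pi) * (-2 * Real.pi) * C)
      (Icc (0 : Fin 2 → ℝ) 1) volume :=
    integrableOn_const isCompact_Icc.measure_lt_top.ne enorm_ne_top
  have key := integrableOn_phs R m (volume : Measure (Fin 2 → ℝ)) hM far h0 hcont
    (a := fun _ => (-2 * Real.pi) • (W R m).vec (.al i))
    (b := fun _ => (-2 * Real.pi) • (W R m).vec (.al j))
    continuousOn_const continuousOn_const hP
    (Y := fun _ => yT N) continuous_const (continuous_aT i j) (fun _ _ _ => le_rfl) hA₀ hg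
    (by
      intro q hq x hx
      have h3 := hB R m far N h2 (aT i j q) (hA₀ q hq) x hx i j
      rw [← phs_const R m (OmR R m X Θ (H503.mtV v) (Sx R far))] at h3
      rw [phs_smul2, abs_mul, abs_of_nonneg (mul_self_nonneg (-2 * Real.pi)),
        mul_assoc (-2 * Real.pi * (-2 * Real.pi))]
      exact mul_le_mul_of_nonneg_left h3 (mul_self_nonneg _))
  simp only [IR_eq]
  exact key

/-! ### annuli -/

/-- integrability of the contributions of the regions to the annulus -/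
def AnnInt (X : Ext) (Θ : Gauge) : Prop :=
  ∀ (i : Fin 3) (v : H213.VV), WtT 8 (H503.mtV v) → H213.sV ⟨2 * i, by omega⟩ v = v →
    ∃ N₀ : ℝ, ∀ N ≥ N₀, ∀ (R : H95.Region) (m : ∀ k, Fin (R.n k + 1)) (far : R.Cm → Bool),
      IntegrableOn (fun q : ℝ × ℝ => IR R m X Θ (H503.mtV v) far (yA i N q.1) (aA i q.2)
        (fun p => (W R m).eul p i) (fun _ => (-2 * Real.pi) • (W R m).vec (.al i)))
        (Ioi (1 : ℝ) ×ˢ Icc (0 : ℝ) 1)

theorem continuous_yA (i : Fin 3) (N : ℝ) : Continuous fun q : ℝ × ℝ => yA i N q.1 := by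
  refine continuous_pi fun k => ?_
  unfold yA
  split_ifs <;> fun_prop

theorem continuous_aA (i : Fin 3) : Continuous fun q : ℝ × ℝ => aA i q.2 := by
  refine continuous_pi fun k => ?_
  unfold aA
  split_ifs <;> fun_prop

theorem le_yA {N : ℝ} (hN : 0 ≤ N) (i : Fin 3) {Y : ℝ} (hY : 1 ≤ Y) (k : Fin 3) :
    N ≤ yA i N Y k := by
  unfold yA
  split_ifs
  · exact le_mul_of_one_le_right hN hY
  · exact le_rfl

theorem aA_mem (i : Fin 3) {s : ℝ} (hs : s ∈ Icc (0 : ℝ) 1) (k : Fin 3) :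
    -7 ≤ aA i s k ∧ aA i s k ≤ 1 := by
  have hp := Real.pi_lt_d2
  have hp0 := Real.pi_pos
  have h0 := hs.1
  have h1 := hs.2
  unfold aA
  split_ifs
  · constructor <;> nlinarith
  · constructor <;> norm_num

theorem integrableOn_pow : IntegrableOn (fun q : ℝ × ℝ => q.1 ^ (-(3 / 2) : ℝ))
    (Ioi (1 : ℝ) ×ˢ Icc (0 : ℝ) 1) := by
  have h1 : IntegrableOn (fun t : ℝ => t ^ (-(3 / 2) : ℝ)) (Ioi 1) :=
    integrableOn_Ioi_rpow_of_lt (by norm_num) one_pos
  have h2 : IntegrableOn (fun _ : ℝ => (1 : ℝ)) (Icc 0 1) :=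
    integrableOn_const (by simp) (by simp)
  have h3 := Integrable.mul_prod h1 h2
  rw [Measure.prod_restrict] at h3
  refine Integrable.congr h3 (Eventually.of_forall fun q => ?_)
  simp

/-- **the contributions of the regions to the annulus are integrable** -/
theorem annInt {X : Ext} {Θ : Gauge} (hM : MeasDom) (hC : ContOm X Θ) (hB : BdA X Θ) :
    AnnInt X Θ := by
  intro i v hw hv
  obtain ⟨N₁, hC⟩ := hC
  obtain ⟨C, N₂, hN₂, hB⟩ := hB i (H503.mtV v) (H503.symT_mtV v) hw (by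
    rw [← H503.mtV_sV, hv])
  refine ⟨max N₁ N₂, fun N hN R m far => ?_⟩
  have h1 : N₁ ≤ N := (le_max_left _ _).trans hN
  have h2 : N₂ ≤ N := (le_max_right _ _).trans hN
  have h0 : 0 < N := by linarith
  have hcont : ContinuousOn (fun q : BF R m =>
      OmR R m X Θ (H503.mtV v) (Sx R far) (H573.mk R m q.1.1 q.1.2 q.2)) (Dq R m N far) :=
    (hC (H503.mtV v) (H503.symT_mtV v) R m far).mono
      fun q hq => ⟨fun k => h1.trans (hq.1 k), hq.2.1, hq.2.2⟩
  have hP : MeasurableSet (Ioi (1 : ℝ) ×ˢ Icc (0 : ℝ) 1) := measurableSet_Ioi.prod measurableSet_Icc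
  have hA₀ : ∀ q ∈ Ioi (1 : ℝ) ×ˢ Icc (0 : ℝ) 1, ∀ k, -7 ≤ aA i q.2 k ∧ aA i q.2 k ≤ 1 :=
    fun q hq k => aA_mem i hq.2 k
  have hY₀ : ∀ q ∈ Ioi (1 : ℝ) ×ˢ Icc (0 : ℝ) 1, ∀ k, N ≤ yA i N q.1 k :=
    fun q hq k => le_yA h0.le i (le_of_lt hq.1) k
  have hg : IntegrableOn (fun q : ℝ × ℝ => 2 * Real.pi * (C / N) * q.1 ^ (-(3 / 2) : ℝ))
      (Ioi (1 : ℝ) ×ˢ Icc (0 : ℝ) 1) volume := integrableOn_pow.const_mul _
  have key := integrableOn_phs R m (volume : Measure (ℝ × ℝ)) hM far h0 hcont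
    (a := fun p => (W R m).eul p i)
    (b := fun _ => (-2 * Real.pi) • (W R m).vec (.al i))
    (continuousOn_eul R m i) continuousOn_const hP
    (continuous_yA i N) (continuous_aA i) hY₀ hA₀ hg
    (by
      intro q hq x hx
      have hq1 : (1 : ℝ) < q.1 := hq.1
      have h3 := hB R m far N q.1 h2 hq1.le (aA i q.2) (hA₀ q hq) x hx
      rw [← phs_eul R m (OmR R m X Θ (H503.mtV v) (Sx R far))] at h3
      rw [phs_smul, abs_mul]
      have h4 : |-2 * Real.pi| = 2 * Real.pi := by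
        rw [abs_of_neg (by have := Real.pi_pos; linarith)]
        ring
      have h5 : q.1 ^ (-(3 / 2) : ℝ) = (q.1 ^ (3 / 2 : ℝ))⁻¹ :=
        Real.rpow_neg (by linarith) _
      rw [h4]
      refine (mul_le_mul_of_nonneg_left h3 (by positivity)).trans (le_of_eq ?_)
      rw [h5]
      field_simp)
  simp only [IR_eq]
  exact key

/-- **(S2, annuli)** from (S1). -/
theorem limAnn_of {X : Ext} {Θ : Gauge} (h : LimFib X Θ) (hI : AnnInt X Θ) : LimAnn X Θ := by
  intro i v D hD hw hv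
  obtain ⟨N₀, h⟩ := h
  obtain ⟨N₁, hI⟩ := hI i v hw hv
  obtain ⟨r₀, hr₀, h1⟩ := H503.exists_r₀ (max (max N₀ N₁) 1)
  refine ⟨r₀, hr₀, fun r hr => ?_⟩
  obtain ⟨h2, h3⟩ := h1 r hr
  have hN0 : N₀ ≤ H503.yr r := (le_max_left _ _).trans ((le_max_left _ _).trans h3)
  have hN1 : N₁ ≤ H503.yr r := (le_max_right _ _).trans ((le_max_left _ _).trans h3)
  have hN : 0 < H503.yr r := zero_lt_one.trans_le ((le_max_right _ _).trans h3)
  rw [H503.ANN_D hD h2 hN i, ← H503.yr_eq]
  have h4 : ∀ q ∈ Ioi (1 : ℝ) ×ˢ Icc (0 : ℝ) 1, -(2 * Real.pi * H503.yr r) *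
      H503.ph2 X Θ (H503.mtV v) (yA i (H503.yr r) q.1, aA i q.2) (Pi.single i 1, 0)
        (0, Pi.single i 1) =
      ∑ R : H95.Region, ∑ m : ∀ k, Fin (R.n k + 1), ∑ far : R.Cm → Bool,
        H503.yr r * IR R m X Θ (H503.mtV v) far (yA i (H503.yr r) q.1) (aA i q.2)
          (fun p => (W R m).eul p i) (fun _ => (-2 * Real.pi) • (W R m).vec (.al i)) := by
    intro q hq
    have e1 := h (H503.mtV v) (H503.symT_mtV v) (yA i (H503.yr r) q.1) (aA i q.2)
      (fun k => hN0.trans (le_yA hN.le i (le_of_lt hq.1) k)) (fun k => aA_mem i hq.2 k)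
      (Pi.single i 1, 0) (0, (-2 * Real.pi) • Pi.single i 1)
      (fun R m p => (W R m).eul p i)
      (fun R m _ => (-2 * Real.pi) • (W R m).vec (.al i))
      (fun R m p => ⟨rfl, rfl⟩)
      (fun R m p => ⟨by simp [H732.Reg.vec], by simp [H732.Reg.vec]⟩)
    have e2 : H503.ph2 X Θ (H503.mtV v) (yA i (H503.yr r) q.1, aA i q.2) (Pi.single i 1, 0)
        (0, Pi.single i 1) * (-2 * Real.pi) =
        PhiF X Θ (H503.mtV v) (rootsL (yA i (H503.yr r) q.1) (aA i q.2))
          ![fderiv ℝ rtp (yA i (H503.yr r) q.1, aA i q.2) (Pi.single i 1, 0),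
            fderiv ℝ rtp (yA i (H503.yr r) q.1, aA i q.2)
              (0, (-2 * Real.pi) • Pi.single i 1)] := by
      have e3 : ((0, (-2 * Real.pi) • Pi.single i 1) : H503.Bs) =
          (-2 * Real.pi) • ((0, Pi.single i 1) : H503.Bs) := by
        refine Prod.ext ?_ rfl
        simp
      have e4 : fderiv ℝ rtp (yA i (H503.yr r) q.1, aA i q.2) (Pi.single i 1, 0) =
          (1 : ℝ) • fderiv ℝ rtp (yA i (H503.yr r) q.1, aA i q.2) (Pi.single i 1, 0) :=
        (one_smul ℝ _).symm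
      rw [e3, map_smul, e4, H503.alt_smul2, one_mul, mul_comm]
      rfl
    have e5 : -(2 * Real.pi * H503.yr r) *
        H503.ph2 X Θ (H503.mtV v) (yA i (H503.yr r) q.1, aA i q.2) (Pi.single i 1, 0)
          (0, Pi.single i 1) = H503.yr r *
        (H503.ph2 X Θ (H503.mtV v) (yA i (H503.yr r) q.1, aA i q.2) (Pi.single i 1, 0)
          (0, Pi.single i 1) * (-2 * Real.pi)) := by ring
    rw [e5, e2, e1, Finset.mul_sum]
    refine Finset.sum_congr rfl fun R _ => ?_
    rw [Finset.mul_sum]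
    refine Finset.sum_congr rfl fun m _ => ?_
    rw [Finset.mul_sum]
  rw [setIntegral_congr_fun (measurableSet_Ioi.prod measurableSet_Icc) h4]
  have h5 : ∀ (R : H95.Region) (m : ∀ k, Fin (R.n k + 1)) (far : R.Cm → Bool),
      IntegrableOn (fun q : ℝ × ℝ => H503.yr r * IR R m X Θ (H503.mtV v) far
        (yA i (H503.yr r) q.1) (aA i q.2)
        (fun p => (W R m).eul p i) (fun _ => (-2 * Real.pi) • (W R m).vec (.al i)))
        (Ioi (1 : ℝ) ×ˢ Icc (0 : ℝ) 1) := fun R m far => (hI _ hN1 R m far).const_mul _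
  rw [integral_finsetSum _ fun R _ => integrable_finsetSum _ fun m _ =>
    integrable_finsetSum _ fun far _ => h5 R m far]
  refine Finset.sum_congr rfl fun R _ => ?_
  rw [integral_finsetSum _ fun m _ => integrable_finsetSum _ fun far _ => h5 R m far]
  refine Finset.sum_congr rfl fun m _ => ?_
  rw [integral_finsetSum _ fun far _ => h5 R m far]
  rfl

/-- **(S2, annuli)** -/
theorem limAnn {X : Ext} {Θ : Gauge} (hM : MeasDom) (hC : ContOm X Θ) (hB : BdA X Θ)
    (h : LimFib X Θ) : LimAnn X Θ := limAnn_of h (annInt hM hC hB)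

end Vale.Agent.P273.H67

end
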