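import Vale.Agent.P273.H395.Norm
import Vale.Agent.P273.H948.PFam

/-!
Normalisation data along a map that is biholomorphic on the fibres in question: change of the marks,
restriction of the base, modification away from the fibres.
-/

noncomputable section

namespace Vale.Agent.P273.H67

open Set Sum Filter H183 H837 H395 H948
open scoped Topology

variable {L L' V E : Type} {m m' : ℕ}

/-- **Transport of normalisation data.** `ℓ` maps the fibres of `C` over `φ U` bijectively to those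
of `C'`, and it is holomorphic there; the marks of `C'` are new. -/
theorem Norm.lift {C : Fam L m} {C' : Fam L' m} {U : Set (Fin m' → ℂ)}
    {φ : (Fin m' → ℂ) → Fin m → ℂ} {h : (E × Bool) ⊕ L → V}
    {z : (E × Bool) ⊕ L → (Fin m' → ℂ) → OnePoint ℂ}
    {g : V → OnePoint ℂ → (Fin m' → ℂ) → C.X} (hN : Norm C U φ h z g) {ℓ : C.X → C'.X}
    {h' : (E × Bool) ⊕ L' → V} {z' : (E × Bool) ⊕ L' → (Fin m' → ℂ) → OnePoint ℂ}
    (hB : ∀ b ∈ U, φ b ∈ C'.B)
    (hπ : ∀ b ∈ U, ∀ x ∈ C.fib (φ b), C'.π (ℓ x) = φ b)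
    (hc : ∀ b ∈ U, ∀ x ∈ C.fib (φ b), ContinuousAt ℓ x)
    (hinj : ∀ b ∈ U, InjOn ℓ (C.fib (φ b)))
    (hsurj : ∀ b ∈ U, SurjOn ℓ (C.fib (φ b)) (C'.fib (φ b)))
    (hhol : ∀ b ∈ U, ∀ x ∈ C.fib (φ b), ∀ f, C'.hol f (ℓ x) → C.hol (f ∘ ℓ) x)
    (hh : ∀ y, h' (inl y) = h (inl y)) (hz : ∀ b ∈ U, ∀ y, z' (inl y) b = z (inl y) b)
    (hm : ∀ b ∈ U, ∀ x, C'.s x (φ b) = ℓ (g (h' (inr x)) (z' (inr x) b) b)) :
    Norm C' U φ h' z' (fun v w b => ℓ (g v w b)) where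
  an := hN.an
  mem := hB
  cont v := by
    rintro ⟨w, b⟩ hu
    exact ContinuousAt.comp_continuousWithinAt (g := ℓ)
      (f := fun u : OnePoint ℂ × (Fin m' → ℂ) => g v u.1 u.2)
      (hc b hu.2 _ (hN.proj b hu.2 v w)) (hN.cont v _ hu)
  proj b hb v w := hπ b hb _ (hN.proj b hb v w)
  onto b hb p hp := by
    obtain ⟨x, hx, rfl⟩ := hsurj b hb hp
    obtain ⟨v, w, rfl⟩ := hN.onto b hb x hx
    exact ⟨v, w, rfl⟩
  ident b hb v w v' w' := by
    have h1 : ℓ (g v w b) = ℓ (g v' w' b) ↔ g v w b = g v' w' b :=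
      ⟨fun e => hinj b hb (hN.proj b hb v w) (hN.proj b hb v' w') e, fun e => congrArg ℓ e⟩
    rw [h1, hN.ident b hb v w v' w']
    simp only [hh, hz b hb]
  hol b hb v w f hf := hN.hol b hb v w (f ∘ ℓ) (hhol b hb _ (hN.proj b hb v w) f hf)
  mark b hb x := hm b hb x

/-- The family of the nodal surface `S` over `B` with the marks `s`. -/
abbrev famOf {L : Type} {m : ℕ} (S : Surf m) (B : Set (Fin m → ℂ)) (s : L → (Fin m → ℂ) → S.X) :
    Fam L m where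
  B := B
  X := S.X
  π := S.π
  hol f p := S.hol p f
  s := s

/-- Change of the marks and of the base, same surface. -/
theorem Norm.marks {S : Surf m} {B B' : Set (Fin m → ℂ)} {s : L → (Fin m → ℂ) → S.X}
    {s' : L' → (Fin m → ℂ) → S.X} {U : Set (Fin m' → ℂ)}
    {φ : (Fin m' → ℂ) → Fin m → ℂ} {h : (E × Bool) ⊕ L → V}
    {z : (E × Bool) ⊕ L → (Fin m' → ℂ) → OnePoint ℂ}
    {g : V → OnePoint ℂ → (Fin m' → ℂ) → S.X} (hN : Norm (famOf S B s) U φ h z g)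
    {h' : (E × Bool) ⊕ L' → V} {z' : (E × Bool) ⊕ L' → (Fin m' → ℂ) → OnePoint ℂ}
    (hB : ∀ b ∈ U, φ b ∈ B') (hh : ∀ y, h' (inl y) = h (inl y))
    (hz : ∀ b ∈ U, ∀ y, z' (inl y) b = z (inl y) b)
    (hm : ∀ b ∈ U, ∀ x, s' x (φ b) = g (h' (inr x)) (z' (inr x) b) b) :
    Norm (famOf S B' s') U φ h' z' g :=
  Norm.lift (C' := famOf S B' s') hN (ℓ := fun x => x) hB (fun _ _ _ hx => hx)
    (fun _ _ _ _ => continuousAt_id) (fun _ _ => injOn_id _) (fun _ _ => surjOn_id _)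
    (fun _ _ _ _ f hf => hf) hh hz hm

/-- **(OFF)** Modification away from the fibres over `φ U`. -/
theorem Norm.modify {S N' : Surf m} {M : Modif S N'} (hF : M.Fib) {B : Set (Fin m → ℂ)}
    {s : L → (Fin m → ℂ) → S.X} {s' : L' → (Fin m → ℂ) → M.T.X} {U : Set (Fin m' → ℂ)}
    {φ : (Fin m' → ℂ) → Fin m → ℂ} {h : (E × Bool) ⊕ L → V}
    {z : (E × Bool) ⊕ L → (Fin m' → ℂ) → OnePoint ℂ}
    {g : V → OnePoint ℂ → (Fin m' → ℂ) → S.X} (hN : Norm (famOf S B s) U φ h z g)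
    (hZ : ∀ b ∈ U, ∀ x ∈ M.Z, S.π x ≠ φ b)
    {h' : (E × Bool) ⊕ L' → V} {z' : (E × Bool) ⊕ L' → (Fin m' → ℂ) → OnePoint ℂ}
    (hh : ∀ y, h' (inl y) = h (inl y)) (hz : ∀ b ∈ U, ∀ y, z' (inl y) b = z (inl y) b)
    (hm : ∀ b ∈ U, ∀ x, s' x (φ b) = hF.lift (g (h' (inr x)) (z' (inr x) b) b)) :
    Norm (famOf M.T B s') U φ h' z' (fun v w b => hF.lift (g v w b)) := by
  have hnot : ∀ b ∈ U, ∀ x : S.X, S.π x = φ b → x ∉ M.Z := fun b hb x hx hxZ => hZ b hb x hxZ hx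
  refine Norm.lift (C' := famOf M.T B s') hN (ℓ := hF.lift) hN.mem ?_ ?_ ?_ ?_ ?_ hh hz hm
  · intro b hb x hx
    exact (hF.lift_π x).trans hx
  · intro b hb x hx
    exact hF.lift_cont (hnot b hb x hx)
  · intro b hb x hx y hy e
    have := congrArg M.r e
    rwa [hF.r_lift, hF.r_lift] at this
  · intro b hb y hy
    have hy' : M.T.π y = φ b := hy
    have h1 : S.π (M.r y) = φ b := by rw [M.πr]; exact hy'
    exact ⟨M.r y, h1, hF.lift_eq (hnot b hb _ h1)⟩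
  · intro b hb x hx f hf
    exact hF.lift_hol (hnot b hb x hx) hf

open Classical in
/-- The map to an open subsurface. -/
def toRes {S : Surf m} {O : Set S.X} (hO : IsOpen O) (p₀ : (S.restrict O hO).X) (x : S.X) :
    (S.restrict O hO).X :=
  if hx : x ∈ O then Surf.toSub hO x hx else p₀

theorem inc_toRes {S : Surf m} {O : Set S.X} (hO : IsOpen O) (p₀ : (S.restrict O hO).X) {x : S.X}
    (hx : x ∈ O) : Surf.inc (toRes hO p₀ x) = x := by
  rw [toRes, dif_pos hx, Surf.inc_toSub]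

theorem toRes_inc {S : Surf m} {O : Set S.X} (hO : IsOpen O) (p₀ : (S.restrict O hO).X)
    (y : (S.restrict O hO).X) : toRes hO p₀ (Surf.inc y) = y :=
  Surf.inc_inj (inc_toRes hO p₀ (Surf.inc_mem y))

/-- **Restriction to an open part of the surface that contains the fibres over `φ U`.** -/
theorem Norm.restrict {S : Surf m} {O : Set S.X} (hO : IsOpen O) (p₀ : (S.restrict O hO).X)
    {B B' : Set (Fin m → ℂ)} {s : L → (Fin m → ℂ) → S.X}
    {s' : L' → (Fin m → ℂ) → (S.restrict O hO).X} {U : Set (Fin m' → ℂ)}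
    {φ : (Fin m' → ℂ) → Fin m → ℂ} {h : (E × Bool) ⊕ L → V}
    {z : (E × Bool) ⊕ L → (Fin m' → ℂ) → OnePoint ℂ}
    {g : V → OnePoint ℂ → (Fin m' → ℂ) → S.X} (hN : Norm (famOf S B s) U φ h z g)
    (hUO : ∀ b ∈ U, ∀ x, S.π x = φ b → x ∈ O) (hB : ∀ b ∈ U, φ b ∈ B')
    {h' : (E × Bool) ⊕ L' → V} {z' : (E × Bool) ⊕ L' → (Fin m' → ℂ) → OnePoint ℂ}
    (hh : ∀ y, h' (inl y) = h (inl y)) (hz : ∀ b ∈ U, ∀ y, z' (inl y) b = z (inl y) b)
    (hm : ∀ b ∈ U, ∀ x, Surf.inc (s' x (φ b)) = g (h' (inr x)) (z' (inr x) b) b) :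
    Norm (famOf (S.restrict O hO) B' s') U φ h' z' (fun v w b => toRes hO p₀ (g v w b)) := by
  refine Norm.lift (C' := famOf (S.restrict O hO) B' s') hN (ℓ := toRes hO p₀) hB
    ?_ ?_ ?_ ?_ ?_ hh hz ?_
  · intro b hb x hx
    have h1 : S.π (Surf.inc (toRes hO p₀ x)) = φ b := by
      rw [inc_toRes hO p₀ (hUO b hb x hx)]; exact hx
    exact h1
  · intro b hb x hx
    have hxO := hUO b hb x hx
    obtain ⟨y, rfl⟩ : ∃ y : (S.restrict O hO).X, Surf.inc y = x := ⟨Surf.toSub hO x hxO, rfl⟩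
    change Tendsto _ _ _
    rw [← (Surf.inc_emb (S := S) (hO := hO)).map_nhds_eq, Filter.tendsto_map'_iff, toRes_inc]
    have : toRes hO p₀ ∘ Surf.inc = id := funext (toRes_inc hO p₀)
    rw [this]
    exact tendsto_id
  · intro b hb x hx y hy e
    have := congrArg Surf.inc e
    rwa [inc_toRes hO p₀ (hUO b hb x hx), inc_toRes hO p₀ (hUO b hb y hy)] at this
  · intro b hb y hy
    exact ⟨Surf.inc y, hy, toRes_inc hO p₀ y⟩
  · intro b hb x hx f hf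
    have hxO := hUO b hb x hx
    have hf' : (S.restrict O hO).hol (toRes hO p₀ x) f := hf
    rw [Surf.restrict_hol, inc_toRes hO p₀ hxO] at hf'
    obtain ⟨f', hf', e⟩ := hf'
    change S.hol x (f ∘ toRes hO p₀)
    refine S.hol_congr hf' ?_
    have h2 : map Surf.inc (𝓝 (toRes hO p₀ x)) = 𝓝 x := by
      rw [(Surf.inc_emb (S := S) (hO := hO)).map_nhds_eq, inc_toRes hO p₀ hxO]
    rw [← h2]
    refine Filter.eventually_map.2 ?_
    filter_upwards [e] with q hq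
    simp only [Function.comp_apply, toRes_inc] at hq ⊢
    exact hq
  · intro b hb x
    have h1 : g (h' (inr x)) (z' (inr x) b) b ∈ O := by
      rw [← hm b hb x]; exact Surf.inc_mem _
    refine Surf.inc_inj (S := S) (hO := hO) ?_
    rw [inc_toRes hO p₀ h1]
    exact hm b hb x

/-- Restriction to a smaller base. -/
theorem Norm.shrink {F : PFam m} {B' : Set (Fin m → ℂ)} (hB' : IsOpen B') (hBB : B' ⊆ F.B)
    (p₀ : (F.shrink B' hB' hBB).S.X) {s : L → (Fin m → ℂ) → F.S.X}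
    {s' : L' → (Fin m → ℂ) → (F.shrink B' hB' hBB).S.X} {U : Set (Fin m' → ℂ)}
    {φ : (Fin m' → ℂ) → Fin m → ℂ} {h : (E × Bool) ⊕ L → V}
    {z : (E × Bool) ⊕ L → (Fin m' → ℂ) → OnePoint ℂ}
    {g : V → OnePoint ℂ → (Fin m' → ℂ) → F.S.X} (hN : Norm (famOf F.S F.B s) U φ h z g)
    (hB : ∀ b ∈ U, φ b ∈ B')
    {h' : (E × Bool) ⊕ L' → V} {z' : (E × Bool) ⊕ L' → (Fin m' → ℂ) → OnePoint ℂ}
    (hh : ∀ y, h' (inl y) = h (inl y)) (hz : ∀ b ∈ U, ∀ y, z' (inl y) b = z (inl y) b)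
    (hm : ∀ b ∈ U, ∀ x, Surf.inc (hO := hB'.preimage F.S.cont_π) (s' x (φ b)) = g (h' (inr x)) (z' (inr x) b) b) :
    Norm (famOf (F.shrink B' hB' hBB).S B' s') U φ h' z'
      (fun v w b => toRes (hB'.preimage F.S.cont_π) p₀ (g v w b)) :=
  Norm.restrict (hB'.preimage F.S.cont_π) p₀ hN
    (fun b hb x hx => by change F.S.π x ∈ B'; rw [hx]; exact hB b hb) hB hh hz hm

end Vale.Agent.P273.H67

end
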